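import Mathlib
import Crest.Agent.X262.Chn.Defs
import Crest.Agent.X262.Top.Bal
import Crest.Agent.X262.Geo.Dv
import Crest.Agent.X262.Form88.Pur
import Crest.Agent.X277.Unf.Main
import Crest.Agent.X262.Int23.Hl
import Crest.Agent.X262.Form88.Geo

-- ▼ part X262/Chn/Count
section

/-!
# Row 262, CHN (helper49): the abstract count of blocks

`T` is a complex vector space with a biadditive form `β` (bilinear or sesquilinear) whose
orthogonality is symmetric, `Rt` a set of "roots", `D` the set of prime divisors, `Kr F` the kernel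
of the restriction to the divisor `F`.  For a set `S` of divisors `TS S` is the set of vectors which
restrict to zero on all divisors outside `S`.

* `Amb.Dec S₀ A B` : `TS (S₀ ∪ A)` is the orthogonal sum of `TS S₀` and of the blocks `B E`, `E ∈ A`;
* `Amb.StepAt`     : the data of one blow-up; `Dec.insert` : one step;
* `Amb.dec_ext`    : all steps along a set closed under predecessors;
* `Amb.count`      : the count.
-/

set_option autoImplicit false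

namespace Crest.Agent.X262.Chn

/-- the ambient data -/
structure Amb (T D : Type*) [AddCommGroup T] [Module ℂ T] where
  /-- the form -/
  β : T →+ T →+ ℂ
  symm : ∀ x y, β x y = 0 → β y x = 0
  /-- the kernel of the restriction to a divisor -/
  Kr : D → Submodule ℂ T
  /-- the roots -/
  Rt : Set T

namespace Amb

variable {T D : Type*} [AddCommGroup T] [Module ℂ T] (a : Amb T D)

/-- vectors which restrict to zero on all divisors outside `S` -/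
def TS (S : Set D) : Submodule ℂ T := ⨅ F, ⨅ _ : F ∉ S, a.Kr F

/-- orthogonal subspaces -/
def Orth (M N : Submodule ℂ T) : Prop := ∀ x ∈ M, ∀ y ∈ N, a.β x y = 0

/-- not isotropic -/
def NI (x : T) : Prop := a.β x x ≠ 0

variable {a}

theorem mem_TS {S : Set D} {x : T} : x ∈ a.TS S ↔ ∀ F, F ∉ S → x ∈ a.Kr F := by
  simp [TS, Submodule.mem_iInf]

theorem TS_mono {S S' : Set D} (h : S ⊆ S') : a.TS S ≤ a.TS S' := fun _ hx =>
  mem_TS.2 fun F hF => mem_TS.1 hx F fun h1 => hF (h h1)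

theorem Orth.symm {M N : Submodule ℂ T} (h : a.Orth M N) : a.Orth N M := fun x hx y hy =>
  a.symm _ _ (h y hy x hx)

theorem Orth.mono {M N M' N' : Submodule ℂ T} (h : a.Orth M N) (h1 : M' ≤ M) (h2 : N' ≤ N) :
    a.Orth M' N' := fun x hx y hy => h x (h1 hx) y (h2 hy)

theorem β_nsmul (n : ℕ) (x y : T) : a.β (n • x) y = n * a.β x y := by
  rw [map_nsmul, AddMonoidHom.nsmul_apply, nsmul_eq_mul]

theorem β_nsmul' (n : ℕ) (x y : T) : a.β x (n • y) = n * a.β x y := by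
  rw [map_nsmul, nsmul_eq_mul]

/-- on a line through a non isotropic direction there is a non isotropic point -/
theorem exists_ni {x b : T} (hb : a.NI b) : ∃ n : ℕ, 0 < n ∧ a.NI (x + n • b) := by
  by_contra hcon
  push Not at hcon
  have key : ∀ n : ℕ, 0 < n →
      a.β x x + n * (a.β x b + a.β b x) + n ^ 2 * a.β b b = 0 := by
    intro n hn
    have h := hcon n hn
    unfold NI at h
    rw [not_not, map_add, map_add, AddMonoidHom.add_apply, AddMonoidHom.add_apply, β_nsmul,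
      β_nsmul', β_nsmul, β_nsmul'] at h
    linear_combination h
  have h1 := key 1 (by norm_num)
  have h2 := key 2 (by norm_num)
  have h3 := key 3 (by norm_num)
  push_cast at h1 h2 h3
  exact hb (by linear_combination (h1 - 2 * h2 + h3) / 2)

theorem mem_of_add_nsmul {M : Submodule ℂ T} {x b : T} {n : ℕ} (hb : b ∈ M)
    (h : x + n • b ∈ M) : x ∈ M := by
  have := M.sub_mem h (nsmul_mem hb n)
  rwa [add_sub_cancel_right] at this

/-- a subspace whose non isotropic vectors lie in mutually orthogonal subspaces lies in one -/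
theorem le_of_cover {ι : Type*} {M : ι → Submodule ℂ T}
    (hM : ∀ i j, i ≠ j → a.Orth (M i) (M j)) {B : Submodule ℂ T}
    (hB : ∀ x ∈ B, a.NI x → ∃ i, x ∈ M i) {b : T} (hb : b ∈ B) (hbn : a.NI b) {i : ι}
    (hi : b ∈ M i) : B ≤ M i := by
  have key : ∀ x ∈ B, a.NI x → x ∈ M i := by
    intro x hx hxn
    obtain ⟨j, hj⟩ := hB x hx hxn
    by_cases hij : j = i
    · exact hij ▸ hj
    obtain ⟨n, hn, h⟩ := exists_ni (x := x) hbn
    obtain ⟨l, hl⟩ := hB _ (B.add_mem hx (nsmul_mem hb n)) h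
    by_cases hli : l = i
    · exact mem_of_add_nsmul hi (hli ▸ hl)
    exfalso
    have h1 := hM l i hli _ hl b hi
    rw [map_add, AddMonoidHom.add_apply, hM j i hij x hj b hi, β_nsmul, zero_add] at h1
    exact mul_ne_zero (Nat.cast_ne_zero.2 hn.ne') hbn h1
  intro x hx
  obtain ⟨n, -, h⟩ := exists_ni (x := x) hbn
  exact mem_of_add_nsmul hi (key _ (B.add_mem hx (nsmul_mem hb n)) h)

variable (a) in
/-- `TS (S₀ ∪ A)` is the orthogonal sum of `TS S₀` and of the blocks `B E`, `E ∈ A` -/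
structure Dec (S₀ : Set D) (A : Finset D) (B : D → Submodule ℂ T) : Prop where
  le : ∀ E ∈ A, B E ≤ a.TS (S₀ ∪ A)
  orth0 : ∀ E ∈ A, a.Orth (a.TS S₀) (B E)
  orth : ∀ E ∈ A, ∀ E' ∈ A, E ≠ E' → a.Orth (B E) (B E')
  sum : ∀ x ∈ a.TS (S₀ ∪ A), ∃ x₀ ∈ a.TS S₀, ∃ b : D → T, (∀ E ∈ A, b E ∈ B E) ∧
    x = x₀ + ∑ E ∈ A, b E
  root : ∀ E ∈ A, ∀ x ∈ B E, a.NI x → x ∈ a.Rt
  sep : ∀ x ∈ a.Rt, a.NI x → x ∈ a.TS (S₀ ∪ A) → x ∈ a.TS S₀ ∨ ∃ E ∈ A, x ∈ B E
  ker : ∀ E ∈ A, ∀ x ∈ B E, x ∈ a.Kr E → ¬ a.NI x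

theorem dec_empty (S₀ : Set D) (B : D → Submodule ℂ T) : a.Dec S₀ ∅ B where
  le := by simp
  orth0 := by simp
  orth := by simp
  sum x hx := ⟨x, by simpa using hx, fun _ => 0, by simp, by simp⟩
  root := by simp
  sep x _ _ hx := Or.inl (by simpa using hx)
  ker := by simp

variable (a) in
/-- The blow-up which creates `E`: `DV` is the set of divisors of the model which is blown up,
`B` the new block, the divisors of `DV` outside `J` do not see the block. -/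
structure StepAt (DV J : Set D) (E : D) (B : Submodule ℂ T) : Prop where
  notMem : E ∉ DV
  le : B ≤ a.TS (insert E DV)
  orth : a.Orth (a.TS DV) B
  sum : ∀ x ∈ a.TS (insert E DV), ∃ x₀ ∈ a.TS DV, ∃ b ∈ B, x = x₀ + b
  root : ∀ x ∈ B, a.NI x → x ∈ a.Rt
  sep : ∀ x ∈ a.Rt, a.NI x → x ∈ a.TS (insert E DV) → x ∈ a.TS DV ∨ x ∈ B
  junk : ∀ F ∈ DV, F ∉ J → B ≤ a.Kr F


/-- one step -/
theorem Dec.insert [DecidableEq D] {S₀ : Set D} {A : Finset D} {B : D → Submodule ℂ T}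
    (h : a.Dec S₀ A B) {DV J : Set D} {E : D} (st : a.StepAt DV J E (B E))
    (h1 : S₀ ∪ A ⊆ DV) (h2 : J ⊆ S₀ ∪ A) : a.Dec S₀ (insert E A) B := by
  have hEA : E ∉ A := fun hE => st.notMem (h1 (Or.inr hE))
  have hS : S₀ ∪ (↑(Insert.insert E A) : Set D) = Insert.insert E (S₀ ∪ A) := by
    rw [Finset.coe_insert, Set.union_insert]
  have hle : a.TS (S₀ ∪ A) ≤ a.TS (Insert.insert E (S₀ ∪ A)) := TS_mono (Set.subset_insert _ _)
  have hleV : a.TS (S₀ ∪ A) ≤ a.TS DV := TS_mono h1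
  have hup : a.TS (Insert.insert E (S₀ ∪ A)) ≤ a.TS (Insert.insert E DV) :=
    TS_mono (Set.insert_subset_insert h1)
  have hB : B E ≤ a.TS (Insert.insert E (S₀ ∪ A)) := by
    refine fun x hx => mem_TS.2 fun F hF => ?_
    by_cases hFV : F ∈ DV
    · exact st.junk F hFV (fun hJ => hF (Or.inr (h2 hJ))) hx
    · exact mem_TS.1 (st.le hx) F fun h3 => h3.elim (fun h4 => hF (Or.inl h4)) hFV
  have hdown : ∀ x ∈ a.TS (Insert.insert E (S₀ ∪ A)), x ∈ a.TS DV → x ∈ a.TS (S₀ ∪ A) := by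
    refine fun x hx hx' => mem_TS.2 fun F hF => ?_
    by_cases hFE : F = E
    · exact mem_TS.1 hx' F (hFE ▸ st.notMem)
    · exact mem_TS.1 hx F fun h3 => h3.elim hFE hF
  refine ⟨fun F hF => ?_, fun F hF => ?_, fun F hF F' hF' hne => ?_, fun x hx => ?_,
    fun F hF => ?_, fun x hx hn hxS => ?_, fun F hF => ?_⟩
  · rw [hS]
    rcases Finset.mem_insert.1 hF with rfl | hF
    · exact hB
    · exact (h.le F hF).trans hle
  · rcases Finset.mem_insert.1 hF with rfl | hF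
    · exact st.orth.mono ((TS_mono Set.subset_union_left).trans hleV) le_rfl
    · exact h.orth0 F hF
  · rcases Finset.mem_insert.1 hF with h3 | h3 <;> rcases Finset.mem_insert.1 hF' with h4 | h4
    · exact absurd (h3.trans h4.symm) hne
    · rw [h3]
      exact (st.orth.mono ((h.le F' h4).trans hleV) le_rfl).symm
    · rw [h4]
      exact st.orth.mono ((h.le F h3).trans hleV) le_rfl
    · exact h.orth F h3 F' h4 hne
  · rw [hS] at hx
    obtain ⟨x₁, hx₁, c, hc, rfl⟩ := st.sum x (hup hx)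
    have h3 : x₁ ∈ a.TS (Insert.insert E (S₀ ∪ A)) := by
      simpa using Submodule.sub_mem _ hx (hB hc)
    obtain ⟨x₀, hx₀, b, hb, rfl⟩ := h.sum x₁ (hdown x₁ h3 hx₁)
    refine ⟨x₀, hx₀, Function.update b E c, fun F hF => ?_, ?_⟩
    · rcases Finset.mem_insert.1 hF with rfl | hF
      · rwa [Function.update_self]
      · rw [Function.update_of_ne fun h4 : F = E => hEA (h4 ▸ hF)]
        exact hb F hF
    · rw [Finset.sum_insert hEA, Function.update_self, add_assoc, add_comm c]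
      congr 2
      exact Finset.sum_congr rfl fun F hF =>
        (Function.update_of_ne (fun h4 : F = E => hEA (h4 ▸ hF)) _ _).symm
  · rcases Finset.mem_insert.1 hF with rfl | hF
    · exact st.root
    · exact h.root F hF
  · rw [hS] at hxS
    rcases st.sep x hx hn (hup hxS) with h3 | h3
    · rcases h.sep x hx hn (hdown x hxS h3) with h4 | ⟨F, hF, h4⟩
      · exact Or.inl h4
      · exact Or.inr ⟨F, Finset.mem_insert_of_mem hF, h4⟩
    · exact Or.inr ⟨E, Finset.mem_insert_self _ _, h3⟩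
  · rcases Finset.mem_insert.1 hF with rfl | hF
    · intro x hx hK hn
      refine hn (st.orth x (mem_TS.2 fun G hG => ?_) x hx)
      by_cases hGF : G = F
      · exact hGF ▸ hK
      · exact mem_TS.1 (st.le hx) G fun h3 => h3.elim hGF hG
    · exact h.ker F hF

/-- a finite set closed under predecessors -/
def Clo (Pred : D → Set D) (A : Finset D) : Prop := ∀ E ∈ A, Pred E ⊆ A

variable (a) in
/-- all the blow-ups for the divisors of `A` over the model with divisors `S₀` -/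
def Steps (S₀ : Set D) (Pred : D → Set D) (dep : D → ℕ) (A : Finset D)
    (B : D → Submodule ℂ T) : Prop :=
  ∀ E ∈ A, ∃ DV : Set D, a.StepAt DV (S₀ ∪ Pred E) E (B E) ∧ S₀ ⊆ DV ∧
    ∀ E' ∈ A, E' ≠ E → dep E' ≤ dep E → E' ∈ DV

/-- the decomposition for every closed subset -/
theorem Steps.dec {S₀ : Set D} {Pred : D → Set D} {dep : D → ℕ} {A : Finset D}
    {B : D → Submodule ℂ T} (hs : a.Steps S₀ Pred dep A B)
    (hdep : ∀ E ∈ A, ∀ E' ∈ Pred E, dep E' < dep E) (A' : Finset D) (hA : A' ⊆ A)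
    (hc : Clo Pred A') : a.Dec S₀ A' B := by
  classical
  induction A' using Finset.induction_on_max_value dep with
  | empty => exact dec_empty S₀ B
  | insert E A' hE hmax ih =>
    have hnot : ∀ E' ∈ Insert.insert E A', E ∉ Pred E' := by
      intro E' hE' h
      have h1 := hdep E' (hA hE') E h
      rcases Finset.mem_insert.1 hE' with rfl | h2
      · exact lt_irrefl _ h1
      · exact absurd (hmax E' h2) (not_le.2 h1)
    have hsub : ∀ E' ∈ Insert.insert E A', Pred E' ⊆ A' := by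
      intro E' hE' F hF
      rcases Finset.mem_insert.1 (Finset.mem_coe.1 (hc E' hE' hF)) with rfl | h
      · exact absurd hF (hnot E' hE')
      · exact h
    obtain ⟨DV, st, h0, h1⟩ := hs E (hA (Finset.mem_insert_self _ _))
    refine (ih (fun F hF => hA (Finset.mem_insert_of_mem hF))
      fun F hF => hsub F (Finset.mem_insert_of_mem hF)).insert st ?_ ?_
    · rintro F (hF | hF)
      · exact h0 hF
      · exact h1 F (hA (Finset.mem_insert_of_mem hF)) (fun h => hE (h ▸ hF)) (hmax F hF)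
    · exact Set.union_subset_union_right _ (hsub E (Finset.mem_insert_self _ _))

/-- every finite set lies in a closed finite set -/
theorem exists_clo {Ex : Set D} {Pred : D → Finset D} {dep : D → ℕ}
    (h : ∀ E ∈ Ex, ∀ E' ∈ Pred E, E' ∈ Ex ∧ dep E' < dep E) (A : Finset D) (hA : ↑A ⊆ Ex) :
    ∃ A' : Finset D, A ⊆ A' ∧ ↑A' ⊆ Ex ∧ Clo (fun E => ↑(Pred E)) A' := by
  classical
  have one : ∀ (n : ℕ) (E : D), E ∈ Ex → dep E = n →
      ∃ A' : Finset D, E ∈ A' ∧ ↑A' ⊆ Ex ∧ Clo (fun E => ↑(Pred E)) A' := by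
    intro n
    induction n using Nat.strong_induction_on with
    | _ n ih =>
      intro E hE hn
      choose! C h1 h2 h3 using fun E' (hE' : E' ∈ Pred E) =>
        ih (dep E') (hn ▸ (h E hE E' hE').2) E' (h E hE E' hE').1 rfl
      refine ⟨Insert.insert E ((Pred E).biUnion C), Finset.mem_insert_self _ _, ?_, ?_⟩
      · intro F hF
        rcases Finset.mem_insert.1 (Finset.mem_coe.1 hF) with rfl | hF
        · exact hE
        · obtain ⟨E', hE', hF⟩ := Finset.mem_biUnion.1 hF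
          exact h2 E' hE' hF
      · intro F hF G hG
        refine Finset.mem_coe.2 (Finset.mem_insert_of_mem (Finset.mem_biUnion.2 ?_))
        rcases Finset.mem_insert.1 hF with rfl | hF
        · exact ⟨G, hG, h1 G hG⟩
        · obtain ⟨E', hE', hF⟩ := Finset.mem_biUnion.1 hF
          exact ⟨E', hE', h3 E' hE' F hF hG⟩
  choose! C h1 h2 h3 using fun E (hE : E ∈ A) => one _ E (hA hE) rfl
  refine ⟨A.biUnion C, fun E hE => Finset.mem_biUnion.2 ⟨E, hE, h1 E hE⟩, fun F hF => ?_,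
    fun F hF G hG => ?_⟩
  · obtain ⟨E, hE, hF⟩ := Finset.mem_biUnion.1 (Finset.mem_coe.1 hF)
    exact h2 E hE hF
  · obtain ⟨E, hE, hF⟩ := Finset.mem_biUnion.1 hF
    exact Finset.mem_coe.2 (Finset.mem_biUnion.2 ⟨E, hE, h3 E hE F hF hG⟩)

/-- a space of roots lies in one summand -/
theorem Dec.le_or {S₀ : Set D} {A : Finset D} {B : D → Submodule ℂ T} (h : a.Dec S₀ A B)
    {M : Submodule ℂ T} (hM : M ≤ a.TS (S₀ ∪ A)) (hr : ∀ x ∈ M, a.NI x → x ∈ a.Rt) {b : T}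
    (hb : b ∈ M) (hbn : a.NI b) : M ≤ a.TS S₀ ∨ ∃ E ∈ A, M ≤ B E := by
  let N : Option A → Submodule ℂ T := fun o => o.elim (a.TS S₀) fun E => B E
  have hN : ∀ i j, i ≠ j → a.Orth (N i) (N j) := by
    rintro (_ | E) (_ | E') hne
    · exact absurd rfl hne
    · exact h.orth0 E' E'.2
    · exact (h.orth0 E E.2).symm
    · exact h.orth E E.2 E' E'.2 fun h1 => hne (by rw [Subtype.ext h1])
  have hc : ∀ x ∈ M, a.NI x → ∃ i, x ∈ N i := by
    intro x hx hn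
    rcases h.sep x (hr x hx hn) hn (hM hx) with h1 | ⟨E, hE, h1⟩
    · exact ⟨none, h1⟩
    · exact ⟨some ⟨E, hE⟩, h1⟩
  obtain ⟨i, hi⟩ := hc b hb hbn
  have := le_of_cover hN hc hb hbn hi
  rcases i with _ | E
  · exact Or.inl this
  · exact Or.inr ⟨E, E.2, this⟩

/-- a non isotropic vector of a sum of orthogonal blocks has a non isotropic component -/
theorem Dec.exists_comp {S₀ : Set D} {A : Finset D} {B : D → Submodule ℂ T} (h : a.Dec S₀ A B)
    (h0 : a.TS S₀ = ⊥) {x : T} (hx : x ∈ a.TS (S₀ ∪ A)) (hn : a.NI x) :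
    ∃ E ∈ A, ∃ b ∈ B E, a.NI b ∧ a.β x b ≠ 0 := by
  obtain ⟨x₀, hx₀, b, hb, rfl⟩ := h.sum x hx
  rw [h0, Submodule.mem_bot] at hx₀
  rw [hx₀, zero_add] at hn ⊢
  have key : ∀ E ∈ A, a.β (∑ E ∈ A, b E) (b E) = a.β (b E) (b E) := by
    intro E hE
    rw [map_sum, AddMonoidHom.finsetSum_apply]
    exact Finset.sum_eq_single_of_mem E hE fun F hF hne =>
      h.orth F hF E hE hne _ (hb F hF) _ (hb E hE)
  by_contra hcon
  refine hn ?_
  rw [map_sum (a.β _)]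
  refine Finset.sum_eq_zero fun E hE => ?_
  by_contra h1
  exact hcon ⟨E, hE, b E, hb E hE, by rwa [key E hE] at h1, h1⟩

/-- **the count** -/
theorem count {SP SX : Set D} {A₂ A₃ A₄ : Finset D} {BP BX : D → Submodule ℂ T}
    (h24 : A₂ ⊆ A₄) (d2 : ∀ E ∈ A₂, E ∉ SX) (d3 : ∀ E ∈ A₃, E ∉ SP)
    (s2 : SP ⊆ SX ∪ A₂) (s3 : SX ∪ A₂ ⊆ SP ∪ A₃)
    (s4 : SP ∪ A₃ ⊆ SX ∪ A₄) (D2 : a.Dec SX A₂ BX) (D3 : a.Dec SP A₃ BP) (D4 : a.Dec SX A₄ BX)
    (hP : a.TS SP = ⊥) {τ : D → Prop} {Φ : Submodule ℂ T → Prop}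
    (hΦ : ∀ M, Φ M → ∃ x ∈ M, a.NI x) (hτX : ∀ E ∈ A₂, τ E → Φ (BX E))
    (hτP : ∀ E ∈ A₃, Φ (BP E) → τ E) (hX : ∃ x ∈ a.TS SX, a.NI x)
    (hX' : ∀ M, M ≤ a.TS SX → (∃ x ∈ M, a.NI x) → Φ M) :
    {E | E ∈ SP ∧ E ∉ SX ∧ τ E}.ncard < {E | E ∈ SX ∧ E ∉ SP ∧ τ E}.ncard := by
  classical
  have up : ∀ E ∈ A₃, ∀ b ∈ BP E, a.NI b → BP E ≤ a.TS SX ∨ ∃ F ∈ A₄, BP E ≤ BX F :=
    fun E hE b hb hn => D4.le_or ((D3.le E hE).trans (TS_mono s4)) (D3.root E hE) hb hn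
  have inS : ∀ (S : Set D), ∀ E ∈ A₃, ∀ b ∈ BP E, a.NI b → b ∈ a.TS S → E ∈ S := by
    intro S E hE b hb hn hS
    by_contra h
    exact D3.ker E hE b hb (mem_TS.1 hS E h) hn
  have ex : ∀ F ∈ A₂, τ F → ∃ E ∈ A₃, BP E = BX F := by
    intro F hF hτ
    obtain ⟨x, hx, hn⟩ := hΦ _ (hτX F hF hτ)
    rcases D3.le_or ((D2.le F hF).trans (TS_mono s3)) (D2.root F hF) hx hn with h | ⟨E, hE, h⟩
    · have h1 := h hx
      rw [hP, Submodule.mem_bot] at h1
      exact absurd (by rw [h1, map_zero]) hn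
    refine ⟨E, hE, le_antisymm ?_ h⟩
    rcases up E hE x (h hx) hn with h1 | ⟨F', hF', h1⟩
    · exact absurd (D2.orth0 F hF x (h1 (h hx)) x hx) hn
    · by_cases h2 : F' = F
      · exact h2 ▸ h1
      · exact absurd (D4.orth F' hF' F (h24 hF) h2 x (h1 (h hx)) x hx) hn
  choose! σ hσ hσ' using ex
  obtain ⟨x, hx, hn⟩ := hX
  obtain ⟨E₀, hE₀, b, hb, hbn, hxb⟩ :=
    D3.exists_comp hP (TS_mono (Set.subset_union_left.trans s3) hx) hn
  have hE₀X : BP E₀ ≤ a.TS SX := by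
    rcases up E₀ hE₀ b hb hbn with h1 | ⟨F, hF, h1⟩
    · exact h1
    · exact absurd (D4.orth0 F hF x hx b (h1 hb)) hxb
  set UX : Set D := {F | F ∈ A₂ ∧ τ F}
  set UP : Set D := {E | E ∈ SX ∪ A₂ ∧ E ∉ SP ∧ τ E}
  set C : Set D := {E | E ∈ A₂ ∧ E ∉ SP ∧ τ E}
  have fX : UX.Finite := A₂.finite_toSet.subset fun F hF => hF.1
  have fP : UP.Finite := A₃.finite_toSet.subset fun E hE => (s3 hE.1).resolve_left hE.2.1
  have hE₀U : E₀ ∈ UP := ⟨Or.inl (inS SX E₀ hE₀ b hb hbn (hE₀X hb)), d3 E₀ hE₀,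
    hτP E₀ hE₀ (hX' _ hE₀X ⟨b, hb, hbn⟩)⟩
  have hmap : ∀ F ∈ UX, σ F ∈ UP \ {E₀} := by
    rintro F ⟨hF, hτ⟩
    obtain ⟨y, hy, hyn⟩ := hΦ _ (hτX F hF hτ)
    have hy' : y ∈ BP (σ F) := by rwa [hσ' F hF hτ]
    refine ⟨⟨inS _ _ (hσ F hF hτ) y hy' hyn (D2.le F hF hy), d3 _ (hσ F hF hτ),
      hτP _ (hσ F hF hτ) (by rw [hσ' F hF hτ]; exact hτX F hF hτ)⟩, fun h => ?_⟩
    rw [Set.mem_singleton_iff.1 h] at hy'
    exact hyn (D2.orth0 F hF y (hE₀X hy') y hy)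
  have hinj : Set.InjOn σ UX := by
    rintro F ⟨hF, hτ⟩ F' ⟨hF', hτ'⟩ h
    by_contra hne
    obtain ⟨y, hy, hyn⟩ := hΦ _ (hτX F hF hτ)
    have hy' : y ∈ BX F' := by rwa [← hσ' F' hF' hτ', ← h, hσ' F hF hτ]
    exact hyn (D2.orth F hF F' hF' hne y hy y hy')
  have h1 : UX.ncard < UP.ncard :=
    (Set.ncard_le_ncard_of_injOn σ hmap hinj (fP.subset Set.sdiff_subset)).trans_lt
      (Set.ncard_sdiff_singleton_lt_of_mem hE₀U fP)
  have e1 : UX = {E | E ∈ SP ∧ E ∉ SX ∧ τ E} ∪ C := by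
    ext E
    constructor
    · rintro ⟨hE, hτ⟩
      by_cases h : E ∈ SP
      · exact Or.inl ⟨h, d2 E hE, hτ⟩
      · exact Or.inr ⟨hE, h, hτ⟩
    · rintro (⟨h, h', hτ⟩ | ⟨h, -, hτ⟩)
      · exact ⟨(s2 h).resolve_left h', hτ⟩
      · exact ⟨h, hτ⟩
  have e2 : UP = {E | E ∈ SX ∧ E ∉ SP ∧ τ E} ∪ C := by
    ext E
    constructor
    · rintro ⟨h | h, h'⟩
      · exact Or.inl ⟨h, h'⟩
      · exact Or.inr ⟨h, h'⟩
    · rintro (⟨h, h'⟩ | ⟨h, h'⟩)
      · exact ⟨Or.inl h, h'⟩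
      · exact ⟨Or.inr h, h'⟩
  rw [e1] at fX
  rw [e2] at fP
  rw [e1, e2, Set.ncard_union_eq (Set.disjoint_left.2 fun E h h' => h'.2.1 h.1)
      (fX.subset Set.subset_union_left) (fX.subset Set.subset_union_right),
    Set.ncard_union_eq (Set.disjoint_left.2 fun E h h' => d2 E h'.1 h.1)
      (fP.subset Set.subset_union_left) (fP.subset Set.subset_union_right)] at h1
  omega

end Amb

end Crest.Agent.X262.Chn
end

-- ▼ part X262/Chn/Sys
section

/-!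
# Row 262, CHN (helper49): systems of models

`M` is the set of smooth models, `D` the set of divisors, `Bu` the set of blow-ups of smooth
surfaces.  `Geo` is the geometric, `Sys` the cohomological input; `Sys.count` is the count.
-/

set_option autoImplicit false

namespace Crest.Agent.X262.Chn

/-- the geometric input -/
structure Geo (M D Bu : Type*) where
  /-- domination -/
  Ge : M → M → Prop
  /-- the divisors of a model -/
  Dv : M → Set D
  /-- the model which is blown up -/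
  lo : Bu → M
  /-- the blow-up -/
  hi : Bu → M
  /-- the exceptional divisor -/
  ex : Bu → D
  /-- the divisors which contain the centre -/
  thru : Bu → Set D
  /-- all divisors -/
  Al : Set D
  trans : ∀ {U V W}, Ge U V → Ge V W → Ge U W
  mono : ∀ {U V}, Ge U V → Dv V ⊆ Dv U
  al : ∀ U, Dv U ⊆ Al
  fin : ∀ U V, (Dv U \ Dv V).Finite
  dir : ∀ (s : Finset M), s.Nonempty → ∃ U, ∀ V ∈ s, Ge U V
  ge : ∀ b, Ge (hi b) (lo b)
  ex_notMem : ∀ b, ex b ∉ Dv (lo b)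
  dv_hi : ∀ b, Dv (hi b) = insert (ex b) (Dv (lo b))
  qt : ∀ P, ∃ (dep : D → ℕ) (Pd : D → Finset D),
    (∀ E ∈ Al \ Dv P, ∀ E' ∈ Pd E, E' ∈ Al \ Dv P ∧ dep E' < dep E) ∧
    ∀ (A : Finset D), ↑A ⊆ Al \ Dv P → ∀ E ∈ A, ∃ b, ex b = E ∧ Ge (lo b) P ∧
      (∀ E' ∈ A, E' ≠ E → dep E' ≤ dep E → E' ∈ Dv (lo b)) ∧
      ∀ W ∈ Dv (lo b), W ∈ thru b → W ∈ Dv P ∨ W ∈ Pd E

/-- the cohomological input -/
structure Sys {M D Bu : Type*} (g : Geo M D Bu) (T : M → Type*) [∀ U, AddCommGroup (T U)]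
    [∀ U, Module ℂ (T U)] where
  /-- form, restrictions and roots -/
  amb : ∀ U, Amb (T U) D
  /-- pull-back -/
  pb : ∀ {U V}, g.Ge U V → T V →ₗ[ℂ] T U
  /-- the new block -/
  blk : ∀ b, Submodule ℂ (T (g.hi b))
  pb_pb : ∀ {U V W} (h : g.Ge U V) (h' : g.Ge V W) (x : T W),
    pb h (pb h' x) = pb (g.trans h h') x
  β_pb : ∀ {U V} (h : g.Ge U V) (x y : T V), (amb U).β (pb h x) (pb h y) = (amb V).β x y
  fact : ∀ {U V} (h : g.Ge U V), (amb U).TS (g.Dv V) = LinearMap.range (pb h)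
  span : ∀ b (x : T (g.hi b)), ∃ x₀, ∃ c ∈ blk b, x = pb (g.ge b) x₀ + c
  orth : ∀ b x₀, ∀ c ∈ blk b, (amb (g.hi b)).β (pb (g.ge b) x₀) c = 0
  junk : ∀ b {U} (h : g.Ge U (g.hi b)), ∀ W ∈ g.Dv (g.lo b), W ∉ g.thru b →
    ∀ c ∈ blk b, pb h c ∈ (amb U).Kr W
  rt : ∀ {U V} (h : g.Ge U V) (x : T V), (amb V).NI x → (pb h x ∈ (amb U).Rt ↔ x ∈ (amb V).Rt)
  bl : ∀ b, ∀ c ∈ blk b, (amb (g.hi b)).NI c → c ∈ (amb (g.hi b)).Rt
  pr : ∀ b, ∀ x ∈ (amb (g.hi b)).Rt, (amb (g.hi b)).NI x →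
    x ∈ LinearMap.range (pb (g.ge b)) ∨ x ∈ blk b

namespace Sys

variable {M D Bu : Type*} {g : Geo M D Bu} {T : M → Type*} [∀ U, AddCommGroup (T U)]
  [∀ U, Module ℂ (T U)] (s : Sys g T)

theorem ni_pb {U V : M} (h : g.Ge U V) (x : T V) : (s.amb U).NI (s.pb h x) ↔ (s.amb V).NI x := by
  unfold Amb.NI
  rw [s.β_pb]

/-- the step of one blow-up, read on a higher model -/
theorem stepAt (b : Bu) {U : M} (h : g.Ge U (g.hi b)) {J : Set D}
    (hJ : ∀ W ∈ g.Dv (g.lo b), W ∈ g.thru b → W ∈ J) :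
    (s.amb U).StepAt (g.Dv (g.lo b)) J (g.ex b) ((s.blk b).map (s.pb h)) := by
  have e1 := s.fact h
  have e0 := s.fact (g.trans h (g.ge b))
  rw [g.dv_hi] at e1
  refine ⟨g.ex_notMem b, ?_, ?_, ?_, ?_, ?_, ?_⟩
  · rw [e1]
    exact LinearMap.map_le_range
  · rw [e0]
    rintro _ ⟨x, rfl⟩ _ ⟨c, hc, rfl⟩
    rw [← s.pb_pb h (g.ge b), s.β_pb]
    exact s.orth b x c hc
  · rw [e1, e0]
    rintro _ ⟨x, rfl⟩
    obtain ⟨x₀, c, hc, rfl⟩ := s.span b x
    exact ⟨_, ⟨x₀, rfl⟩, _, ⟨c, hc, rfl⟩, by rw [map_add, s.pb_pb]⟩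
  · rintro _ ⟨c, hc, rfl⟩ hn
    rw [ni_pb] at hn
    exact (s.rt h c hn).2 (s.bl b c hc hn)
  · rw [e1, e0]
    rintro _ hx hn ⟨x, rfl⟩
    rw [ni_pb] at hn
    rcases s.pr b x ((s.rt h x hn).1 hx) hn with ⟨x₀, rfl⟩ | h1
    · exact Or.inl ⟨x₀, (s.pb_pb _ _ _).symm⟩
    · exact Or.inr ⟨x, h1, rfl⟩
  · rintro W hW hWJ _ ⟨c, hc, rfl⟩
    exact s.junk b h W hW (fun h1 => hWJ (hJ W hW h1)) c hc

/-- **the count for a system**: `Φ` is a property of blocks which is equivalent to the property `τ`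
of the divisor -/
theorem count (P X : M) (hP : ∀ x : T P, x = 0) (hX : ∃ x : T X, (s.amb X).NI x) {τ : D → Prop}
    {Φ : ∀ U, Submodule ℂ (T U) → Prop} (hΦ : ∀ U N, Φ U N → ∃ x ∈ N, (s.amb U).NI x)
    (hτ : ∀ b U (h : g.Ge U (g.hi b)), g.Ge U P → g.Ge U X →
      (τ (g.ex b) ↔ Φ U ((s.blk b).map (s.pb h))))
    (hX' : ∀ U (h : g.Ge U X), g.Ge U P → ∀ N, N ≤ LinearMap.range (s.pb h) →
      (∃ x ∈ N, (s.amb U).NI x) → Φ U N) :
    {E | E ∈ g.Dv P ∧ E ∉ g.Dv X ∧ τ E}.ncard < {E | E ∈ g.Dv X ∧ E ∉ g.Dv P ∧ τ E}.ncard := by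
  classical
  obtain ⟨dP, pP, hP1, hP2⟩ := g.qt P
  obtain ⟨dX, pX, hX1, hX2⟩ := g.qt X
  obtain ⟨A₂, s2, e2, c2⟩ := Amb.exists_clo hX1 (g.fin P X).toFinset fun E hE =>
    ⟨g.al P ((g.fin P X).mem_toFinset.1 hE).1, ((g.fin P X).mem_toFinset.1 hE).2⟩
  have f3 : ((g.Dv X ∪ A₂) \ g.Dv P).Finite := by
    rw [Set.union_sdiff_distrib]
    exact (g.fin X P).union (A₂.finite_toSet.subset Set.sdiff_subset)
  obtain ⟨A₃, s3, e3, c3⟩ := Amb.exists_clo hP1 f3.toFinset fun E hE =>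
    ⟨(f3.mem_toFinset.1 hE).1.elim (fun h => g.al X h) fun h => (e2 h).1, (f3.mem_toFinset.1 hE).2⟩
  have f4 : ((g.Dv P ∪ A₃) \ g.Dv X).Finite := by
    rw [Set.union_sdiff_distrib]
    exact (g.fin P X).union (A₃.finite_toSet.subset Set.sdiff_subset)
  obtain ⟨A₄, s4, e4, c4⟩ := Amb.exists_clo hX1 f4.toFinset fun E hE =>
    ⟨(f4.mem_toFinset.1 hE).1.elim (fun h => g.al P h) fun h => (e3 h).1, (f4.mem_toFinset.1 hE).2⟩
  have t2 : g.Dv P ⊆ g.Dv X ∪ A₂ := fun E hE => (em (E ∈ g.Dv X)).imp_right fun h =>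
    s2 ((g.fin P X).mem_toFinset.2 ⟨hE, h⟩)
  have t3 : g.Dv X ∪ A₂ ⊆ g.Dv P ∪ A₃ := fun E hE => (em (E ∈ g.Dv P)).imp_right fun h =>
    s3 (f3.mem_toFinset.2 ⟨hE, h⟩)
  have t4 : g.Dv P ∪ A₃ ⊆ g.Dv X ∪ A₄ := fun E hE => (em (E ∈ g.Dv X)).imp_right fun h =>
    s4 (f4.mem_toFinset.2 ⟨hE, h⟩)
  have h24 : A₂ ⊆ A₄ := fun E hE => (t4 (t3 (Or.inr hE))).resolve_left (e2 hE).2
  choose bP p1 p2 p3 p4 using hP2 A₃ e3
  choose bX x1 x2 x3 x4 using hX2 A₄ e4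
  obtain ⟨U, hU⟩ := g.dir (insert P (insert X
    (A₃.attach.image (fun E : A₃ => g.hi (bP E.1 E.2)) ∪ A₄.attach.image fun E : A₄ => g.hi (bX E.1 E.2))))
    (Finset.insert_nonempty _ _)
  have uP : g.Ge U P := hU P (by simp)
  have uX : g.Ge U X := hU X (by simp)
  have u3 : ∀ E (hE : E ∈ A₃), g.Ge U (g.hi (bP E hE)) := fun E hE => hU _ (by
    simp only [Finset.mem_insert, Finset.mem_union, Finset.mem_image]
    exact Or.inr (Or.inr (Or.inl ⟨⟨E, hE⟩, Finset.mem_attach _ _, rfl⟩)))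
  have u4 : ∀ E (hE : E ∈ A₄), g.Ge U (g.hi (bX E hE)) := fun E hE => hU _ (by
    simp only [Finset.mem_insert, Finset.mem_union, Finset.mem_image]
    exact Or.inr (Or.inr (Or.inr ⟨⟨E, hE⟩, Finset.mem_attach _ _, rfl⟩)))
  let BP : D → Submodule ℂ (T U) := fun E =>
    if hE : E ∈ A₃ then (s.blk (bP E hE)).map (s.pb (u3 E hE)) else ⊥
  let BX : D → Submodule ℂ (T U) := fun E =>
    if hE : E ∈ A₄ then (s.blk (bX E hE)).map (s.pb (u4 E hE)) else ⊥
  have sP : (s.amb U).Steps (g.Dv P) (fun E => ↑(pP E)) dP A₃ BP := by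
    intro E hE
    refine ⟨_, ?_, g.mono (p2 E hE), p3 E hE⟩
    have := s.stepAt (bP E hE) (u3 E hE) (J := g.Dv P ∪ ↑(pP E)) (p4 E hE)
    rw [p1] at this
    simpa only [BP, dif_pos hE] using this
  have sX : (s.amb U).Steps (g.Dv X) (fun E => ↑(pX E)) dX A₄ BX := by
    intro E hE
    refine ⟨_, ?_, g.mono (x2 E hE), x3 E hE⟩
    have := s.stepAt (bX E hE) (u4 E hE) (J := g.Dv X ∪ ↑(pX E)) (x4 E hE)
    rw [x1] at this
    simpa only [BX, dif_pos hE] using this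
  have dX' : ∀ E ∈ A₄, ∀ E' ∈ (↑(pX E) : Set D), dX E' < dX E := fun E hE E' hE' =>
    (hX1 E (e4 hE) E' hE').2
  refine Amb.count (a := s.amb U) (Φ := Φ U) h24 (fun E hE => (e2 hE).2) (fun E hE => (e3 hE).2)
    t2 t3 t4 (sX.dec dX' A₂ h24 c2)
    (sP.dec (fun E hE E' hE' => (hP1 E (e3 hE) E' hE').2) A₃ subset_rfl c3)
    (sX.dec dX' A₄ subset_rfl c4) ?_ (hΦ U) (fun E hE h => ?_) (fun E hE h => ?_) ?_
    fun N hN => hX' U uX uP N (s.fact uX ▸ hN)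
  · rw [s.fact uP, eq_bot_iff]
    rintro _ ⟨x, rfl⟩
    rw [hP x, map_zero]
    exact zero_mem _
  · have := (hτ (bX E (h24 hE)) U (u4 E (h24 hE)) uP uX).1 (by rwa [x1])
    simpa only [BX, dif_pos (h24 hE)] using this
  · rw [← p1 E hE]
    exact (hτ (bP E hE) U (u3 E hE) uP uX).2 (by simpa only [BP, dif_pos hE] using h)
  · obtain ⟨x, hx⟩ := hX
    exact ⟨s.pb uX x, s.fact uX ▸ ⟨x, rfl⟩, (s.ni_pb uX x).2 hx⟩

end Sys

end Crest.Agent.X262.Chn
end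

-- ▼ part X262/Chn/GeoI
section

/-!
# Row 262, CHN (helper49): the geometric system of the smooth models of `K`

* `Ge.refl`, `Ge.trans`, `Ge.prm`, `exists_ge`;
* `Bw.le_of_pts`, `Bw.cen`, `Bw.eq_V` : the local ring of the centre determines the divisor;
* `geo` : the instance of `Geo`.
-/

set_option autoImplicit false

noncomputable section

namespace Crest.Agent.X262.Chn

open Crest.Agent.X277 Crest.Agent.X277.Lef Crest.Agent.X277.AN.G1 Crest.Agent.X277.BD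
open Crest.Agent.X277.BD.Br (On oP On_le_iff oP_mem free_oP)
open Crest.Agent.X277.Pst (Prm Dvs loc)
open Crest.Agent.X277.Res.Out (Van Un Coords)
open Crest.Agent.X277.Res.Out.Lb (Cen)
open Crest.Agent.X262.Coh
open scoped KaehlerDifferential

variable {K : Type} [Field K] [Algebra ℂ K] {U V W : PModel ℂ K}

theorem Ge.refl (U : PModel ℂ K) : Ge U U := oP_mem

theorem Ge.trans (h : Ge U V) (h' : Ge V W) : Ge U W := On_le_iff.2 h h'

theorem Ge.prm (h : Ge U V) {E : RZ ℂ K} (hE : Prm (oP V) E) : Prm (oP U) E :=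
  have := Geo.eft U
  Geo.prm_up h hE

theorem Ge.loc_le (h : Ge U V) (E : RZ ℂ K) : loc (oP V) E ≤ loc (oP U) E :=
  (Geo.car_of_On h).loc_le E

theorem exists_ge (s : Finset (PModel ℂ K)) (hs : s.Nonempty) : ∃ U, ∀ V ∈ s, Ge U V := by
  classical
  obtain ⟨P, -⟩ := hs
  obtain ⟨U, -, h⟩ := Unf.exists_on_ge P (s.image oP)
  exact ⟨U, fun V hV => h _ (Finset.mem_image_of_mem _ hV)⟩

theorem mor_comp (h : Ge U V) (h' : Ge V W) :
    (Mor.comp (mor h') (mor h)).map = (mor (h.trans h')).map :=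
  funext fun _ => ((mor (h.trans h')).map_eq ⟨fun _ hf =>
    ⟨trivial, (Mor.comp (mor h') (mor h)).π_mem hf⟩,
    fun _ hf => ((Mor.comp (mor h') (mor h)).ev_map hf).symm⟩).symm

theorem Alg.comp {Q : SV} {u : Hom Q (sv U)} {E : RZ ℂ K} (hu : Alg u E) (h : Ge U V) :
    Alg (U := V) (Mor.comp (mor h) u) E :=
  fun f => ⟨fun h1 => (hu f).1 h1.2, fun h1 => ⟨trivial, (hu f).2 h1⟩⟩

namespace Bw

variable (b : Bw K) {E : RZ ℂ K}

/-- a valuation ring which contains the local rings of all points of the centre contains the local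
ring of the centre -/
theorem le_of_pts (h : ∀ z : b.Z.Pt, ∀ f ∈ (lp (b.i.map z)).O, f ∈ E.1) :
    ∀ f ∈ b.i.p.O, f ∈ E.1 := by
  intro f hf
  obtain ⟨z₀⟩ : Nonempty b.Z.Pt := inferInstance
  obtain ⟨c, hc, h0, h1⟩ := b.lcl z₀ f hf
  obtain ⟨z, -, h2, h3⟩ := Form88.res_exists ((Form88.res_mem' b.i z₀ hc).and (Form88.res_ev h0))
    isOpen_univ Set.univ_nonempty
  rw [← b.i.ev_map h2] at h3
  rw [← inv_mul_cancel_left₀ (LP.ne_zero_of_ne h3) f]
  exact mul_mem (h z _ ((lp (b.i.map z)).inv_mem h3)) (h z₀ _ h1)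

theorem exists_chart : ∃ l, b.lo.A l ≤ b.i.p.O := by
  obtain ⟨z⟩ : Nonempty b.Z.Pt := inferInstance
  obtain ⟨l, hl⟩ := exists_pat (b.i.map z)
  exact ⟨l, (A_le hl).trans (Form88.le_map b.i z)⟩

/-- a prime divisor through the centre is a localisation of the ring of the centre -/
theorem cen (hE : Prm (oP b.lo) E) (h : ∀ f ∈ b.i.p.O, f ∈ E.1) : Cen E.1 b.i.p.O := by
  have := Geo.eft b.lo
  obtain ⟨l, hl⟩ := b.exists_chart
  refine ⟨h, fun x hx => ?_⟩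
  obtain ⟨c, h1, h2, h3⟩ := Geo.exists_den (fun y hy => h y (hl hy))
    (Neg.le_loc free_oP (Geo.isMod_oP b.lo).bir hE hx)
  exact ⟨c, hl h1, h2, hl h3⟩

theorem le_loc (h : Qt.Dom E.1 b.i.p.O) : b.i.p.O ≤ loc (oP b.lo) E := by
  intro f hf
  obtain ⟨z⟩ : Nonempty b.Z.Pt := inferInstance
  obtain ⟨c, hc, h0, h1⟩ := b.lcl z f hf
  have h2 : Cns.Ov (b.i.map z) E.1 := fun g hg => h.le g (b.i.mem_O hg)
  have h3 : E.v c = 1 := (h.un_iff (b.i.mem_O hc)).1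
    ⟨Plc.ne_zero_of_ne h0, b.i.mem_O hc, b.i.p.inv_mem h0⟩
  rw [← inv_mul_cancel_left₀ (Plc.ne_zero_of_ne h0) f]
  exact mul_mem (Neg.inv_mem_loc (Geo.lp_le_loc h2 hc) h3) (Geo.lp_le_loc h2 h1)

/-- the exceptional divisor is the order valuation of the local ring of the centre -/
theorem eq_V {t : Fin 2 → K} (hE : Dvs E) (h : Qt.Ord2 b.i.p.O t E.1) : b.V = E := by
  have := Geo.eft b.lo
  have hf : Qt.Fr b.i.p.O t := h.coords.der.imp fun d hd =>
    ⟨fun l => (h.coords.van l).1, hd.1, hd.2⟩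
  have h0 := hf.ne_zero 0
  have hu : t 1 / t 0 ∈ E.1 := h.cen.le _ (Qt.mem_adj rfl)
  have h1 : b.i.p.O ≤ loc (oP b.hi) E := (b.le_loc h.dom).trans (b.ge.loc_le E)
  obtain ⟨g, g1, g2, g3⟩ := b.pri E h.dom.le
  have h2 : g / t 0 ∈ E.1 := by
    obtain ⟨r, hr, rfl⟩ := h.coords.gen g g1
    rw [Fin.sum_univ_two, add_div, mul_div_assoc, mul_div_assoc, div_self h0, mul_one]
    exact add_mem (h.dom.le _ (hr 0)) (mul_mem (h.dom.le _ (hr 1)) hu)
  have h3 := g3 _ (h.coords.van 0)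
  have h4 : E.v (t 0 / g) = 1 := Cns.un_iff_val.1
    ⟨div_ne_zero h0 g2, Pst.mem_of_loc h3, by rwa [inv_div]⟩
  have h5 : t 1 / t 0 ∈ loc (oP b.hi) E := by
    have h6 := mul_mem (g3 _ (h.coords.van 1)) (Neg.inv_mem_loc h3 h4)
    rwa [inv_div, div_mul_div_cancel₀ g2] at h6
  have h6 : Qt.adj b.i.p.O {t 1 / t 0} ≤ loc (oP b.hi) E :=
    Qt.adj_le h1 fun x hx => Set.mem_singleton_iff.1 hx ▸ h5
  have h7 : Prm (oP b.hi) E := by
    refine Geo.prm_of_loc (Geo.isMod_oP _) (Neg.isNv_nv hE) fun x hx => ?_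
    obtain ⟨c, c1, c2, c3⟩ := h.cen.loc x hx
    rw [← inv_mul_cancel_left₀ (Qt.ne_of_val c2) x]
    exact mul_mem (Neg.inv_mem_loc (h6 c1) c2) (h6 c3)
  refine ((b.prm E).1 h7).elim Eq.symm fun h8 => ?_
  exact absurd (h.dom.of_le (b.cen h8 h.dom.le) _ hu)
    (hf.div_notMem (h.coords.van 0) (by decide))

end Bw

/-- **the geometric system** -/
def geo (hq : Qt.QtStmt) (hm : ModStmt) (β : Module.Basis (Fin 4) K Ω[K⁄ℂ])
    (Sp : Bw K → Prop) (ex : ∀ (V : PModel ℂ K) (O : Subalgebra ℂ K) (t : Fin 2 → K),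
      Qt.SmZ V O 4 2 → Coords O t → mxf ℂ ![1, t 0, t 1] ∈ On V →
        ∃ b, Sp b ∧ Ge b.lo V ∧ b.i.p.O = O) : Geo (PModel ℂ K) (RZ ℂ K) {b // Sp b} where
  Ge := Ge
  Dv U := {E | Prm (oP U) E}
  lo b := b.1.lo
  hi b := b.1.hi
  ex b := b.1.V
  thru b := {E | ∀ f ∈ b.1.i.p.O, f ∈ E.1}
  Al := {E | Dvs E}
  trans := Ge.trans
  mono h _ hE := h.prm hE
  al _ _ hE := hE.dvs
  fin U V :=
    have := Geo.eft U
    Top.fin_prm free_oP (Geo.isMod_oP U).bir (Geo.isMod_oP V).bir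
  dir := exists_ge
  ge b := b.1.ge
  ex_notMem b := b.1.nprm
  dv_hi b := Set.ext b.1.prm
  qt P := by
    classical
    obtain ⟨a, ha⟩ := hq K P
    choose! i U t Pd h using fun E (hE : E ∈ {E | Dvs E} \ {E | Prm (oP P) E}) => ha E hE.1 hE.2
    refine ⟨a, Pd, fun E hE E' hE' => ?_, fun A hA E hE => ?_⟩
    · exact ⟨⟨((h E hE).pd E' hE').1, ((h E hE).pd E' hE').2.1⟩, ((h E hE).pd E' hE').2.2⟩
    have h1 := h E (hA hE)
    obtain ⟨V, v1, v2, v3, v4⟩ := hm K 4 β P E (i E) (U E) (t E)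
      (A.filter fun E' => E' ≠ E ∧ a E' ≤ a E) h1.chart h1.mem h1.ord.coords fun E' hE' => by
        obtain ⟨h2, h3, h4⟩ := Finset.mem_filter.1 hE'
        exact ⟨(hA h2).1, fun h5 => (h1.dom E' (hA h2).1 h5).elim h3 (not_lt.2 h4)⟩
    obtain ⟨b, b1, b2, b3⟩ := ex V _ _ v2 h1.ord.coords v4
    refine ⟨⟨b, b1⟩, b.eq_V (hA hE).1 (b3 ▸ h1.ord), b2.trans v1, fun E' h2 h3 h4 =>
      b2.prm (v3 E' (Finset.mem_filter.2 ⟨h2, h3, h4⟩)), fun E' h2 h3 => ?_⟩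
    exact h1.cen E' h2.1 (b3 ▸ b.cen h2 h3)

end Crest.Agent.X262.Chn
end
end

-- ▼ part X262/Chn/Blk

/-!
# Row 262, CHN (helper49): the hermitian form and the block of a blow-up

* `hf_add_left`, `hf_add_right`, `hf_smul_left`, `hf_smul_right`, `hf_symm`, `hf_pb`;
* `exists_hf_ne`, `exists_ni_of`, `exists_ni`;
* `Bw.t_mem`, `Bw.pb_t`, `Bw.orth`, `Bw.hf_t`, `Bw.span`, `Bw.junk`;
* `mem_up` : a class of type `(3,1)` which dies on the contracted divisors;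
* `om_eq_bot` : projective space.
-/

set_option autoImplicit false

noncomputable section

namespace Crest.Agent.X262.Chn

open Crest.Agent.X277 Crest.Agent.X277.Lef Crest.Agent.X277.AN.G1 Crest.Agent.X277.BD
open Crest.Agent.X277.BD.Br (On oP oP_mem)
open Crest.Agent.X277.Pst (Prm Dvs)
open Crest.Agent.X262.Coh Crest.Agent.X262.Int23

variable {C : Th} {X Y : SV} {K : Type} [Field K] [Algebra ℂ K] {U V : PModel ℂ K}

theorem hf_add_left (x x' y : C.H X) : hf C X (x + x') y = hf C X x y + hf C X x' y := by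
  simp only [hf, add_mul, map_add]

theorem hf_add_right (x y y' : C.H X) : hf C X x (y + y') = hf C X x y + hf C X x y' := by
  simp only [hf, mul_add, map_add]

theorem hf_smul_left (c : ℂ) (x y : C.H X) : hf C X (c • x) y = c * hf C X x y := by
  simp only [hf, smul_mul_assoc, map_smul, smul_eq_mul]

theorem NI.ne_zero {x : C.H X} (h : NI C X x) : x ≠ 0 := fun h0 => h (by simp [hf, h0])

variable (A : C.Ax)
include A

theorem cj_smul (c : ℂ) (x : C.H X) : C.cj X (c • x) = starRingEnd ℂ c • C.cj X x := by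
  rw [Algebra.smul_def, map_mul, A.man.cj_alg, Algebra.smul_def]

theorem hf_smul_right (c : ℂ) (x y : C.H X) :
    hf C X x (c • y) = starRingEnd ℂ c * hf C X x y := by
  simp only [hf, cj_smul A, mul_smul_comm, map_smul, smul_eq_mul]

theorem hf_symm (x y : C.H X) : hf C X y x = starRingEnd ℂ (hf C X x y) := by
  rw [hf, hf, ← A.man.cj_itg, map_mul (C.cj X), A.man.cj_cj, mul_comm]

theorem hf_pb {μ : Hom X Y} (h : Bim μ) (x y : C.H Y) :
    hf C X (C.pb μ x) (C.pb μ y) = hf C Y x y := by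
  rw [hf, ← A.man.cj_pb, ← map_mul, itg_bim A h, hf]

theorem ni_pb {μ : Hom X Y} (h : Bim μ) {x : C.H Y} : NI C X (C.pb μ x) ↔ NI C Y x := by
  rw [NI, hf_pb A h, NI]

/-- the form is not degenerate on the classes of type `(p, q)`, `p + q = dim` -/
theorem exists_hf_ne {p q : ℕ} (h : p + q = X.dim) {x : C.H X} (hx : x ∈ C.typ X p q)
    (h0 : x ≠ 0) : ∃ y ∈ C.typ X p q, hf C X x y ≠ 0 := by
  by_contra hc
  push Not at hc
  refine h0 (eq_zero_of_itg A (typ_ind A (fun i j y hy => ?_)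
    fun y z hy hz => by rw [mul_add, map_add, hy, hz, add_zero]))
  by_cases h1 : i = q ∧ j = p
  · have h2 := hc _ (h1.1 ▸ h1.2 ▸ A.typ.cj X y hy)
    rwa [hf, A.man.cj_cj] at h2
  · exact itg_typ A (by omega) (A.typ.mul X hx hy)

/-- polarisation -/
theorem exists_ni_of {N : Submodule ℂ (C.H X)} {x y : C.H X} (hx : x ∈ N) (hy : y ∈ N)
    (h : hf C X x y ≠ 0) : ∃ z ∈ N, NI C X z := by
  by_contra hc
  simp only [NI, not_exists, not_and, not_not] at hc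
  have h1 := hc _ (N.add_mem hx hy)
  have h2 := hc _ (N.add_mem hx (N.smul_mem Complex.I hy))
  rw [hf_add_left, hf_add_right, hf_add_right, hc x hx] at h1 h2
  rw [hc y hy] at h1
  rw [hc _ (N.smul_mem Complex.I hy), hf_smul_left, hf_smul_right A, Complex.conj_I] at h2
  refine h (mul_left_cancel₀ (mul_ne_zero two_ne_zero Complex.I_ne_zero) ?_)
  linear_combination Complex.I * h1 - h2

theorem exists_ni {p q : ℕ} (h : p + q = X.dim) (h0 : C.typ X p q ≠ ⊥) :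
    ∃ z ∈ C.typ X p q, NI C X z := by
  obtain ⟨x, hx, h1⟩ := (Submodule.ne_bot_iff _).1 h0
  obtain ⟨y, hy, h2⟩ := exists_hf_ne A h hx h1
  exact exists_ni_of A hx hy h2

theorem pb_mor (h : Ge U V) {W : PModel ℂ K} (h' : Ge V W) (x : C.H (sv W)) :
    C.pb (mor h) (C.pb (mor h') x) = C.pb (mor (h.trans h')) x := by
  rw [← A.man.pb_comp, A.man.pb_congr _ _ (mor_comp h h')]

theorem up_le (h : Ge U V) : up C h (Om C V) ≤ Om C U := by
  rintro _ ⟨x, hx, rfl⟩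
  exact A.typ.pb _ x hx

/-- a class of type `(3,1)` which dies on the contracted divisors -/
theorem mem_up (F : Frm C) (h : Ge U V) {x : C.H (sv U)} (hx : x ∈ Om C U)
    (h0 : ∀ (W : RZ ℂ K) (Q : SV) (u : Hom Q (sv U)), Prm (oP U) W → ¬ Prm (oP V) W → Alg u W →
      C.pb u x = 0) : x ∈ up C h (Om C V) := by
  obtain ⟨y, rfl⟩ := F.fact h x h0
  refine ⟨y, ?_, rfl⟩
  rw [← push_pb_bim A (bim_mor h) y]
  exact push_typ A (mor h) rfl rfl hx

/-- projective space -/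
theorem om_eq_bot (Y : Top.Hyp 4 0 K) : Om C Y.P = ⊥ := by
  refine (Submodule.eq_bot_iff _).2 fun x hx => ?_
  have h1 := A.typ.le (sv Y.P) (p := 3) (q := 1) (k := 2) rfl hx
  rw [A.pn (sv Y.P) (fun m q hq h => zero_dvd_iff.1 ((Y.ker m q hq).1 h)) 2,
    Submodule.mem_span_singleton] at h1
  obtain ⟨c, rfl⟩ := h1
  have h2 := A.typ.c1 (sv Y.P) _ oP_mem
  have h3 : c • C.hc (sv Y.P) ^ 2 ∈ C.typ (sv Y.P) 2 2 :=
    Submodule.smul_mem _ _ (sq (C.hc (sv Y.P)) ▸ A.typ.mul _ h2 h2)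
  exact Submodule.disjoint_def.1 ((A.typ.int (sv Y.P)).submodule_iSupIndep.pairwiseDisjoint
    (show ((3, 1) : ℕ × ℕ) ≠ (2, 2) by decide)) _ hx h3

namespace Bw

variable (b : Bw K)

theorem xi_mem : b.xi C ∈ C.typ b.E 1 1 := neg_mem (A.typ.pb _ _ (A.typ.c1 _ _ b.dv.on))

theorem t_mem {σ : C.H b.Z} (h : σ ∈ C.typ b.Z 2 0) : b.t C σ ∈ Om C b.hi :=
  push_typ A b.j (by rw [b.dimE]; exact congrArg (2 + ·) b.dimK)
    (by rw [b.dimE]; exact congrArg (0 + ·) b.dimK) (A.typ.pb _ _ h)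

theorem blk_le : b.blk C ≤ Om C b.hi := by
  rintro _ ⟨σ, h, rfl⟩
  exact b.t_mem A h

theorem pb_t (σ : C.H b.Z) : C.pb b.j (b.t C σ) = -(b.xi C * C.pb b.π σ) := by
  rw [t_apply, A.bc2 b.j b.e b.dv, xi, neg_mul, neg_neg]

theorem cj_t (σ : C.H b.Z) : C.cj _ (b.t C σ) = b.t C (C.cj _ σ) := by
  rw [t_apply, t_apply, A.man.cj_pb, push_cj A]

theorem pb_sq (x : C.H (sv b.lo)) : C.pb b.j (C.pb (mor b.ge) x) = C.pb b.π (C.pb b.i x) := by
  rw [← A.man.pb_comp, ← A.man.pb_comp, A.man.pb_congr _ _ b.comm]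

theorem pb_om {x : C.H (sv b.lo)} (hx : x ∈ Om C b.lo) : C.pb b.j (C.pb (mor b.ge) x) = 0 := by
  have h1 := A.typ.pb b.i x hx
  rw [A.typ.gt b.Z 1 (by rw [b.dimZ]; decide), Submodule.mem_bot] at h1
  rw [b.pb_sq A, h1, map_zero]

theorem orth {x : C.H (sv b.lo)} (hx : x ∈ Om C b.lo) (σ : C.H b.Z) :
    hf C _ (C.pb (mor b.ge) x) (b.t C σ) = 0 := by
  rw [hf, b.cj_t A, mul_comm, t_apply, push_adj A, b.pb_om A hx, mul_zero, map_zero]

variable {b}

omit A in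
theorem LH.fib' (h : b.LH C) (y : C.H b.Z) : C.itg b.E (b.xi C * C.pb b.π y) = C.itg b.Z y := by
  simpa using h.fib y

theorem itg_t (h : b.LH C) (σ σ' : C.H b.Z) :
    C.itg _ (b.t C σ * b.t C σ') = -C.itg _ (σ * σ') := by
  rw [t_apply, push_adj A, b.pb_t A, mul_neg, map_neg, mul_left_comm, ← map_mul, h.fib']

theorem hf_t (h : b.LH C) (σ σ' : C.H b.Z) : hf C _ (b.t C σ) (b.t C σ') = -hf C _ σ σ' := by
  rw [hf, b.cj_t A, itg_t A h, hf]

theorem exists_ni_blk (h : b.LH C) (h0 : C.typ b.Z 2 0 ≠ ⊥) : ∃ x ∈ b.blk C, NI C _ x := by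
  obtain ⟨σ, h1, h2⟩ := exists_ni A (by rw [b.dimZ]) h0
  exact ⟨_, ⟨σ, h1, rfl⟩, by rwa [NI, hf_t A h, neg_ne_zero]⟩

theorem pb_j_eq (h : b.LH C) {x : C.H (sv b.hi)} (hx : x ∈ Om C b.hi) :
    C.push b.π (C.pb b.j x) ∈ C.typ b.Z 2 0 ∧
      C.pb b.j x = b.xi C * C.pb b.π (C.push b.π (C.pb b.j x)) := by
  have h1 := A.typ.pb b.j x hx
  have h2 : C.push b.π (C.pb b.j x) ∈ C.typ b.Z 2 0 :=
    push_typ A b.π (by rw [b.dimE, b.dimZ]) (by rw [b.dimE, b.dimZ]) h1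
  have h3 := sub_mem h1 (A.typ.mul _ (b.xi_mem A) (A.typ.pb b.π _ h2))
  refine ⟨h2, sub_eq_zero.1 (eq_zero_of_dg A (i := 2) (j := 1) b.dimE.symm
    (A.typ.le _ rfl h3) fun v hv => ?_)⟩
  obtain ⟨y, hy, rfl⟩ := h.span 1 (by decide) v hv
  obtain ⟨c, hc⟩ := A.man.dg_zero _ _ (hy 0)
  have h4 := A.typ.mul _ h3 (b.xi_mem A)
  rw [A.typ.gt b.E _ (by rw [b.dimE]; decide), Submodule.mem_bot] at h4
  rw [Finset.sum_range_succ, Finset.sum_range_one, hc, AlgHom.commutes, mul_add, Nat.sub_zero,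
    pow_one, mul_left_comm, h4, mul_zero, zero_add, Nat.sub_self, pow_zero, mul_one, sub_mul,
    map_sub, mul_assoc, ← map_mul, h.fib', push_adj A, sub_self]

/-- `H^{3,1}` of the blow-up -/
theorem span (F : Frm C) (h : b.LH C) {x : C.H (sv b.hi)} (hx : x ∈ Om C b.hi) :
    ∃ x₀ ∈ Om C b.lo, ∃ c ∈ b.blk C, x = C.pb (mor b.ge) x₀ + c := by
  obtain ⟨h1, h2⟩ := pb_j_eq A h hx
  obtain ⟨x₀, h3, h4⟩ := mem_up A F b.ge (add_mem hx (b.t_mem A h1)) fun W Q u h3 h4 hu => by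
    obtain rfl : W = b.V := ((b.prm W).1 h3).resolve_right h4
    obtain ⟨w, hw⟩ := Form88.exists_lift b.dv.emb u fun q =>
      Form88.mem_range b.j fun f hf => (b.along f).2 ((hu f).1 (u.mem_O hf))
    rw [← A.man.pb_congr _ _ hw, A.man.pb_comp, map_add (C.pb b.j), b.pb_t A, ← h2,
      add_neg_cancel, map_zero]
  exact ⟨x₀, h3, _, neg_mem ⟨_, h1, rfl⟩, eq_add_neg_of_add_eq h4.symm⟩

/-- a divisor which does not contain the centre does not see the block -/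
theorem junk (F : Frm C) {W : RZ ℂ K} (hW : ¬ ∀ f ∈ b.i.p.O, f ∈ W.1) {Q : SV}
    {u : Hom Q (sv b.hi)} (hu : Alg u W) {c : C.H (sv b.hi)} (hc : c ∈ b.blk C) :
    C.pb u c = 0 := by
  obtain ⟨σ, hσ, rfl⟩ := hc
  refine F.bc b.j b.e u b.dv (C.pb b.π σ) fun G v w hw => ?_
  rw [← A.man.pb_comp]
  refine F.van _ (fun hs => hW (b.le_of_pts fun z f hf => ?_)) 0 σ (by rwa [b.dimZ])
  obtain ⟨g, rfl⟩ := hs z
  have h1 := congrFun b.comm (w.map g)
  have h2 := congrFun hw g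
  simp only [Mor.comp_map] at h1 h2 hf
  rw [← h1, h2, ← Mor.comp_map] at hf
  exact (hu.comp b.ge f).1 ((Mor.comp (mor b.ge) u).mem_O hf)

end Bw

end Crest.Agent.X262.Chn
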